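import Vale.Agent.P352.H746.Flow2
import Vale.Agent.P352.H246.Compl
import Vale.Agent.P352.BW.G2

/-!
# P352W: the generators of the similitudes on the domain generated by covariant fields (helper85)
-/

set_option autoImplicit false

noncomputable section

open MeasureTheory SchwartzMap Complex Filter Topology
open scoped SchwartzMap

namespace Vale.Agent.P352W.Dr

open Vale.Agent.P352
open GF (Ix V Fn Fld Theory sim bas o bar IsLor IsTest)
open H246 (linv isLor_linv barrelled_schwartz)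
open H15 (Rep IsSim)
open H746 (Crv vfS fcl ml)

variable {D : Type*} [NormedAddCommGroup D] [InnerProductSpace ℂ D] {Q : Theory D}

/-- a smeared field as a linear map -/
def fm {B : Fld D} (hB : Q.fld B) (F : 𝓢(Mink, ℂ)) : D →ₗ[ℂ] D where
  toFun := B (fl F)
  map_add' := P352.fld_add hB F
  map_smul' := P352.fld_smul hB F

/-- strongly convergent operators with adjoints -/
structure Sq (Y : ℕ → D →ₗ[ℂ] D) (Y0 : D →ₗ[ℂ] D) : Prop where
  adj : ∀ n, ∃ Y' : D → D, ∀ v w, inner ℂ (Y n v) w = inner ℂ v (Y' w)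
  lim : ∀ v, Tendsto (fun n => Y n v) atTop (𝓝 (Y0 v))

theorem sq_id : Sq (fun _ => (LinearMap.id : D →ₗ[ℂ] D)) LinearMap.id :=
  ⟨fun _ => ⟨id, fun _ _ => rfl⟩, fun _ => tendsto_const_nhds⟩

theorem norm_le_of {u : D} {ε : ℝ} (h : ∀ w : D, ‖w‖ ≤ 1 → ‖inner ℂ w u‖ ≤ ε) : ‖u‖ ≤ ε := by
  rcases eq_or_ne u 0 with rfl | n
  · simpa using h 0 (by simp)
  have p : ‖u‖ ≠ 0 := norm_ne_zero_iff.2 n
  have := h ((‖u‖ : ℂ)⁻¹ • u) (by simp [norm_smul, p])
  rw [inner_smul_left, inner_self_eq_norm_sq_to_K] at this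
  simpa [sq, p] using this

/-- **joint continuity** -/
theorem Sq.step {Y : ℕ → D →ₗ[ℂ] D} {Y0 : D →ₗ[ℂ] D} (h : Sq Y Y0) {B : Fld D} (hB : Q.fld B)
    {g : ℕ → 𝓢(Mink, ℂ)} {g0 : 𝓢(Mink, ℂ)} (hg : Tendsto g atTop (𝓝 g0)) :
    Sq (fun n => Y n ∘ₗ fm hB (g n)) (Y0 ∘ₗ fm hB g0) := by
  choose Y' hY using h.adj
  obtain ⟨B', -, hB'⟩ := Q.adj B hB
  refine ⟨fun n => ⟨fun w => B' (bar (fl (g n))) (Y' n w), fun v w =>
    (hY n _ w).trans (hB' _ v _ (isTest_fl _))⟩, fun v => ?_⟩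
  have := barrelled_schwartz
  let 𝓕 : ℕ × {w : D // ‖w‖ ≤ 1} → 𝓢(Mink, ℂ) →L[ℂ] ℂ := fun i =>
    (innerSL ℂ (Y' i.1 i.2)).comp (fcl hB v)
  have e (i : ℕ × {w : D // ‖w‖ ≤ 1}) (F : 𝓢(Mink, ℂ)) :
      𝓕 i F = inner ℂ (i.2 : D) (Y i.1 (fcl hB v F)) := by
    rw [← inner_conj_symm, hY, inner_conj_symm]
    rfl
  have hbd : ∀ (k : Fin 1) (F : 𝓢(Mink, ℂ)), BddAbove (Set.range fun i =>
      (fun _ : Fin 1 => normSeminorm ℂ ℂ) k (𝓕 i F)) := fun _ F => by
    obtain ⟨C, hC⟩ := (h.lim (fcl hB v F)).norm.bddAbove_range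
    refine ⟨C, ?_⟩
    rintro _ ⟨i, rfl⟩
    simp only [coe_normSeminorm, e]
    exact (norm_inner_le_norm _ _).trans ((mul_le_of_le_one_left (norm_nonneg _) i.2.2).trans
      (hC ⟨i.1, rfl⟩))
  have q := Metric.equicontinuousAt_iff_pair.1
    (((norm_withSeminorms ℂ ℂ).banach_steinhaus (𝓕 := 𝓕) hbd).equicontinuous 0)
  have t : Tendsto (fun n => Y n (fcl hB v (g n - g0))) atTop (𝓝 0) := by
    refine Metric.tendsto_nhds.2 fun ε ε0 => ?_
    obtain ⟨W, hW, k⟩ := q _ (half_pos ε0)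
    filter_upwards [(tendsto_sub_nhds_zero_iff.2 hg).eventually hW] with n hn
    rw [dist_zero_right]
    refine (norm_le_of fun w hw => ?_).trans_lt (half_lt_self ε0)
    have := k _ hn 0 (mem_of_mem_nhds hW) (n, ⟨w, hw⟩)
    simp only [Function.comp_apply, map_zero, inner_zero_right, dist_zero_right, e] at this
    exact this.le
  have := t.add (h.lim (fcl hB v g0))
  rw [zero_add] at this
  refine this.congr fun n => ?_
  rw [← map_add, ← map_add, sub_add_cancel]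
  rfl

/-- parameters of infinitesimal similitudes -/
abbrev Pm := (Ix → V) × ℝ × V

/-- additive maps on the parameters -/
def Ad {E : Type*} [AddCommGroup E] [Module ℂ E] (a : Pm → E) : Prop :=
  ∀ p p' (t : ℝ), a (p + t • p') = a p + (t : ℂ) • a p'

/-- components of multiplets -/
def Mp (Q : Theory D) (B : Fld D) : Prop := ∃ (ι : Type) (_ : Fintype ι) (Φ : ι → Fld D)
  (C : ℝ → (Ix → V) → ι → ℝ) (C' : ι → Pm → ℝ), (∀ k, Q.fld (Φ k)) ∧
  (∀ k, Ad fun p => (C' k p : ℂ)) ∧ (∀ s L a w r c k, Crv s L a w r c →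
    HasDerivAt (fun e => C (s e) (L e) k) (C' k (w, r, c)) 0) ∧
  ∀ s L a f v, 0 < s → IsLor L → IsTest f → B f (Q.U s L a v) =
    ∑ k, (C s L k : ℂ) • Q.U s L a (Φ k (fun x => f (sim s L a x)) v)

/-- the group law -/
def Mu (Q : Theory D) : Prop := ∀ s L a s' L' a' v, 0 < s → 0 < s' → IsLor L → IsLor L' →
  Q.U s L a (Q.U s' L' a' v) = Q.U (s * s') (fun m => sim 1 L 0 (L' m)) (sim s L a a') v

/-- the similitudes as linear maps -/
def uL (Q : Theory D) {s : ℝ} {L : Ix → V} (hs : 0 < s) (hL : IsLor L) (a : V) : D →ₗ[ℂ] D where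
  toFun := Q.U s L a
  map_add' := U_add hs hL a
  map_smul' := U_smul hs hL a

/-- the inverse -/
def iv (Q : Theory D) {s : ℝ} {L : Ix → V} (hs : 0 < s) (hL : IsLor L) (a : V) : D →ₗ[ℂ] D :=
  uL Q (inv_pos.2 hs) (isLor_linv hL) (BW.yinv s L a)

section

variable {s : ℝ} {L : Ix → V} (hs : 0 < s) (hL : IsLor L) (a : V)

theorem u_nrm (v : D) : ‖uL Q hs hL a v‖ = ‖v‖ := H246.U_nrm0 hs hL a v

theorem u_iv (m : Mu Q) (v : D) : uL Q hs hL a (iv Q hs hL a v) = v := by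
  refine (m s L a _ _ _ v hs (inv_pos.2 hs) hL (isLor_linv hL)).trans ?_
  rw [H755.linv_id hL, mul_inv_cancel₀ hs.ne', BW.sim_right hs hL]
  exact H755.Uone v

theorem iv_u (m : Mu Q) (v : D) : iv Q hs hL a (uL Q hs hL a v) = v := by
  rw [← sub_eq_zero, ← norm_eq_zero, ← u_nrm (Q := Q) hs hL a, map_sub, u_iv hs hL a m, sub_self,
    norm_zero]

end

/-- differentiable vectors -/
def Df (Q : Theory D) (v : D) (a : Pm → D) : Prop := Ad a ∧
  ∀ s L y w r c (K : Crv s L y w r c) (e : ℕ → ℝ), Tendsto e atTop (𝓝[≠] 0) → ∀ Y Y0, Sq Y Y0 →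
    Tendsto (fun n => Y n ((e n : ℂ)⁻¹ • (iv Q (K.sp (e n)) (K.lor (e n)) (y (e n)) v - v))) atTop
      (𝓝 (Y0 (a (w, r, c))))

theorem ad_vf (F : 𝓢(Mink, ℂ)) : Ad fun p => vfS p.1 p.2.1 p.2.2 F := fun p p' t => by
  ext x
  simp only [vfS, H746.xf_apply, add_apply, smul_apply, H746.ml_apply]
  rw [Complex.coe_smul, ← map_smul, ← map_add]
  congr 1
  ext n
  simp only [Prod.fst_add, Prod.snd_add, Prod.smul_fst, Prod.smul_snd, Pi.add_apply, Pi.smul_apply,
    smul_eq_mul, PiLp.add_apply, PiLp.smul_apply, Fin.sum_univ_four]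
  ring

theorem df_step (m : Mu Q) {B : Fld D} (hB : Mp Q B) {v : D} {a : Pm → D} (h : Df Q v a)
    (F : 𝓢(Mink, ℂ)) : ∃ a', Df Q (B (fl F) v) a' := by
  obtain ⟨ι, _, Φ, C, C', hΦ, ad, hC, cov⟩ := hB
  refine ⟨fun p => ∑ k, ((C 1 GF.one k : ℂ) • fm (hΦ k) F (a p) +
    (C 1 GF.one k : ℂ) • fcl (hΦ k) v (vfS p.1 p.2.1 p.2.2 F) + (C' k p : ℂ) • fm (hΦ k) F v),
    fun p p' t => ?_, fun s L y w r c K e he Y Y0 q => ?_⟩
  · have h1 := h.1 p p' t
    have h2 := ad_vf F p p' t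
    simp only at h2
    simp only [h1, h2, ad _ p p' t, map_add, map_smul, Finset.smul_sum, ← Finset.sum_add_distrib]
    refine Finset.sum_congr rfl fun k _ => ?_
    simp only [smul_eq_mul]
    module
  have ne : ∀ᶠ n in atTop, e n ≠ 0 := he.eventually self_mem_nhdsWithin
  have e0 : Tendsto e atTop (𝓝 0) := he.mono_right nhdsWithin_le_nhds
  have t1 := (K.tend F).comp he
  have t2 : Tendsto (fun n => K.cs F (e n)) atTop (𝓝 F) := by
    have := (e0.smul t1).add_const F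
    rw [zero_smul, zero_add] at this
    refine this.congr' (ne.mono fun n hn => ?_)
    simp [smul_smul, hn]
  have c0 (k : ι) : Tendsto (fun n => (C (s (e n)) (L (e n)) k : ℂ)) atTop
      (𝓝 (C 1 GF.one k : ℂ)) := by
    have := ((hC s L y w r c k K).continuousAt.tendsto.comp e0).ofReal
    rwa [K.s0, K.L0] at this
  have c1 (k : ι) : Tendsto (fun n => (e n : ℂ)⁻¹ * ((C (s (e n)) (L (e n)) k : ℂ) - C 1 GF.one k))
      atTop (𝓝 (C' k (w, r, c) : ℂ)) := by
    have := ((hasDerivAt_iff_tendsto_slope.1 (hC s L y w r c k K)).comp he).ofReal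
    refine this.congr fun n => ?_
    simp [slope_def_module, K.s0, K.L0]
  have z : B (fl F) v = ∑ k, (C 1 GF.one k : ℂ) • fm (hΦ k) F v := by
    have := cov (s 0) (L 0) (y 0) (fl F) v (K.sp 0) (K.lor 0) (isTest_fl F)
    rw [fl_sim (s 0) (K.sp 0) (K.lor 0)] at this
    simp only [H746.U_at0 K] at this
    rw [this, ← K.s0, ← K.L0]
    exact Finset.sum_congr rfl fun k _ => congrArg (fun G => _ • Φ k (fl G) v) (K.cs_zero F)
  have z' (t : ℝ) : iv Q (K.sp t) (K.lor t) (y t) (B (fl F) v) = ∑ k, (C (s t) (L t) k : ℂ) •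
      fm (hΦ k) (K.cs F t) (iv Q (K.sp t) (K.lor t) (y t) v) := by
    have := cov (s t) (L t) (y t) (fl F) (iv Q (K.sp t) (K.lor t) (y t) v) (K.sp t) (K.lor t)
      (isTest_fl F)
    rw [fl_sim (s t) (K.sp t) (K.lor t)] at this
    rw [((congrArg (B (fl F)) (u_iv (K.sp t) (K.lor t) (y t) m v)).symm.trans this :), map_sum]
    refine Finset.sum_congr rfl fun k _ => ?_
    rw [map_smul]
    exact congrArg _ (iv_u (K.sp t) (K.lor t) (y t) m _)
  simp only [map_sum, map_add, map_smul]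
  have T := tendsto_finsetSum Finset.univ fun k _ =>
    (((c0 k).smul (h.2 s L y w r c K e he _ _ (q.step (hΦ k) t2))).add
      ((c0 k).smul ((q.step (hΦ k) t1).lim v))).add ((c1 k).smul (q.lim (fm (hΦ k) F v)))
  refine T.congr fun n => ?_
  have k1 (k : ι) : fm (hΦ k) ((e n)⁻¹ • (K.cs F (e n) - F)) v =
      (e n : ℂ)⁻¹ • (fm (hΦ k) (K.cs F (e n)) v - fm (hΦ k) F v) := by
    have : (e n)⁻¹ • (K.cs F (e n) - F) = (e n : ℂ)⁻¹ • (K.cs F (e n) - F) := by
      ext x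
      simp
    rw [this]
    exact ((fcl (hΦ k) v).map_smul _ _).trans (congrArg _ ((fcl (hΦ k) v).map_sub _ _))
  simp only [Function.comp_apply, LinearMap.comp_apply, k1, z', map_sub, map_sum, map_smul]
  rw [z]
  simp only [map_sum, map_smul, ← Finset.sum_sub_distrib, Finset.smul_sum]
  refine Finset.sum_congr rfl fun k _ => ?_
  module

/-- the parameters of a vector field -/
def pm (X : V → V) : Pm := (fun m n => X (bas m 1) n - X 0 n -
  (X (bas o 1) o - X 0 o) * GF.one m n, X (bas o 1) o - X 0 o, X 0)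

theorem crv_of {s : ℝ → ℝ} {L : ℝ → Ix → V} {a : ℝ → V} {X : V → V} (h0 : s 0 = 1)
    (h1 : L 0 = GF.one) (h2 : a 0 = 0) (hp : ∀ e, 0 < s e ∧ IsLor (L e))
    (hX : ∀ n x, HasDerivAt (fun e => sim (s e) (L e) (a e) x n) (X x n) 0) :
    Crv s L a (pm X).1 (pm X).2.1 (pm X).2.2 := by
  have ha (n : Ix) : HasDerivAt (fun e => a e n) (X 0 n) 0 := by simpa [sim] using hX n 0
  have hM (m n : Ix) : HasDerivAt (fun e => s e * L e m n) (X (bas m 1) n - X 0 n) 0 := by
    have := (hX n (bas m 1)).fun_sub (ha n)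
    simpa [sim, bas] using this
  have hs : HasDerivAt s (X (bas o 1) o - X 0 o) 0 := by
    have k : HasDerivAt (fun e => ∑ k, GF.eta k * (s e * L e o k) * (s e * L e o k)) _ 0 :=
      HasDerivAt.fun_sum fun k _ => ((hM o k).const_mul (GF.eta k)).fun_mul (hM o k)
    have e (t : ℝ) : ∑ k, GF.eta k * (s t * L t o k) * (s t * L t o k) = s t ^ 2 := by
      have := (hp t).2.1 o o
      simp only [GF.mdot, bas, GF.eta, if_true] at this
      rw [← mul_one (s t ^ 2), ← this, Finset.mul_sum]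
      exact Finset.sum_congr rfl fun k _ => by simp only [GF.eta]; ring
    simp only [e] at k
    have k' := k.sqrt (by simp [h0])
    simp only [Real.sqrt_sq (hp _).1.le] at k'
    refine k'.congr_deriv ?_
    simp [h0, h1, GF.one, bas, GF.eta, o, Fin.sum_univ_four]
  refine ⟨h0, h1, h2, fun e => (hp e).1, fun e => (hp e).2, hs, fun m n => ?_, ha⟩
  have k := (hM m n).fun_div hs (by simp [h0])
  simp only [mul_div_cancel_left₀ _ (hp _).1.ne'] at k
  refine k.congr_deriv ?_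
  simp [h0, h1, pm]
  ring

/-- **the generators** -/
theorem rep_of (m : Mu Q) (gen : ∀ S : Submodule ℂ D, Q.vac ∈ S →
    (∀ A f v, Q.fld A → IsTest f → v ∈ S → A f v ∈ S) → ∀ v, v ∈ S)
    (h : ∀ B, Q.fld B → Mp Q B) : ∃ A, Rep Q A := by
  have z : Df Q Q.vac 0 := ⟨fun _ _ _ => by simp, fun s L y w r c K e _ Y Y0 _ => by
    have (t : ℝ) : iv Q (K.sp t) (K.lor t) (y t) Q.vac = Q.vac :=
      Q.U_vac _ _ _ (inv_pos.2 (K.sp t)) (isLor_linv (K.lor t))
    simp [this]⟩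
  let S : Submodule ℂ D :=
    { carrier := {v | ∃ a, Df Q v a}
      add_mem' := fun {v v'} ⟨a, k⟩ ⟨a', k'⟩ => ⟨a + a', fun p p' t => by
          simp only [Pi.add_apply, k.1 p p' t, k'.1 p p' t]
          module, fun s L y w r c K e he Y Y0 q => by
          have := (k.2 s L y w r c K e he Y Y0 q).add (k'.2 s L y w r c K e he Y Y0 q)
          simp only [← map_add] at this
          refine this.congr fun n => congrArg _ ?_
          rw [map_add]
          module⟩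
      zero_mem' := ⟨0, fun _ _ _ => by simp, fun s L y w r c K e _ Y Y0 _ => by simp⟩
      smul_mem' := fun t v ⟨a, k⟩ => ⟨t • a, fun p p' u => by
          simp only [Pi.smul_apply, k.1 p p' u]
          module, fun s L y w r c K e he Y Y0 q => by
          have := (k.2 s L y w r c K e he Y Y0 q).const_smul t
          simp only [← map_smul] at this
          refine this.congr fun n => congrArg _ ?_
          rw [map_smul]
          module⟩ }
  choose a ha using gen S ⟨0, z⟩ fun B f v hB hf ⟨a, k⟩ => by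
    obtain ⟨F, rfl⟩ := exists_fl hf
    exact df_step m (h B hB) k F
  refine ⟨fun X v => I • a v (pm X), m, fun r r' c X X' v _ _ => ?_,
    fun s L y X v h0 h1 h2 hp hX => ?_⟩
  · have : pm (fun z => X z + c • X' z) = pm X + c • pm X' := by
      ext <;> simp [pm] <;> ring
    rw [this, (ha v).1]
    module
  have K := crv_of h0 h1 h2 hp hX
  rw [hasDerivAt_iff_tendsto_slope, tendsto_iff_seq_tendsto]
  intro e he
  have t (x : D) := (ha x).2 s L y _ _ _ K e he _ _ sq_id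
  simp only [LinearMap.id_apply] at t
  have e0 : Tendsto (fun n => (e n : ℂ)) atTop (𝓝 0) := by
    simpa using (he.mono_right nhdsWithin_le_nhds).ofReal
  set b := a v (pm X)
  have t2 := ((t v).sub_const b).sub (e0.smul (t b))
  rw [show a v ((pm X).1, (pm X).2.1, (pm X).2.2) - b - (0 : ℂ) • _ = 0 by simp [b],
    tendsto_zero_iff_norm_tendsto_zero] at t2
  rw [smul_smul, I_mul_I, tendsto_iff_norm_sub_tendsto_zero]
  refine t2.congr' ((he.eventually self_mem_nhdsWithin).mono fun n (hn : e n ≠ 0) => ?_)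
  have hn' : (e n : ℂ) ≠ 0 := by exact_mod_cast hn
  simp only [Function.comp_apply]
  rw [← u_nrm (Q := Q) (K.sp (e n)) (K.lor (e n)) (y (e n)), ← norm_neg, smul_inv_smul₀ hn']
  simp only [map_sub, map_smul, u_iv _ _ _ m]
  rw [slope_def_module, sub_zero, H746.U_at0 K, ← Complex.coe_smul, ofReal_inv]
  congr 1
  change _ = (e n : ℂ)⁻¹ • (uL Q (K.sp (e n)) (K.lor (e n)) (y (e n)) v - v) - _
  module

theorem mp_sc {φ : Fld D} {d : ℝ} (h : Q.IsScalar φ d) : Mp Q φ := by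
  refine ⟨Unit, inferInstance, fun _ => φ, fun s _ _ => s ^ (4 - d), fun _ p => (4 - d) * p.2.1,
    fun _ => Q.bose_fld _ h.1, fun _ p p' t => by simp; ring, fun s L a w r c _ K => ?_,
    fun s L a f v hs hL hf => by simpa using h.2.2 s L a f v hs hL hf⟩
  simpa [K.s0, mul_comm] using K.ds.rpow_const (p := 4 - d) (.inl (K.sp 0).ne')

theorem mp_T {T : Ix → Ix → Fld D} (hb : ∀ m n, Q.fld (T m n))
    (hT : ∀ m n s L a f v, 0 < s → IsLor L → IsTest f → T m n f (Q.U s L a v) =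
      ∑ k, ∑ l, (L k m * L l n : ℂ) • Q.U s L a (T k l (fun x => f (sim s L a x)) v))
    (m n : Ix) : Mp Q (T m n) := by
  refine ⟨Ix × Ix, inferInstance, fun k => T k.1 k.2, fun _ L k => L k.1 m * L k.2 n,
    fun k p => p.1 k.1 m * GF.one k.2 n + GF.one k.1 m * p.1 k.2 n, fun _ => hb _ _,
    fun _ p p' t => by simp; ring, fun s L a w r c k K => ?_, fun s L a f v hs hL hf => ?_⟩
  · simpa [K.L0] using (K.dL k.1 m).fun_mul (K.dL k.2 n)
  · rw [hT m n s L a f v hs hL hf, Fintype.sum_prod_type]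
    simp

/-- **row DER** -/
theorem rep (Q : Theory D) (mul : Mu Q) (gen : ∀ S : Submodule ℂ D, Q.vac ∈ S →
    (∀ A f v, Q.fld A → IsTest f → v ∈ S → A f v ∈ S) → ∀ v, v ∈ S) {φ : Fld D}
    {T : Ix → Ix → Fld D} {d : ℝ} (hf : ∀ B, Q.fld B → B = φ ∨ ∃ m n, B = T m n)
    (hφ : Q.IsScalar φ d) (hb : ∀ m n, Q.fld (T m n))
    (hT : ∀ m n s L a f v, 0 < s → IsLor L → IsTest f → T m n f (Q.U s L a v) =
      ∑ k, ∑ l, (L k m * L l n : ℂ) • Q.U s L a (T k l (fun x => f (sim s L a x)) v)) :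
    ∃ A, Rep Q A := rep_of mul gen fun B hB => by
  rcases hf B hB with rfl | ⟨m, n, rfl⟩
  exacts [mp_sc hφ, mp_T hb hT m n]

end Vale.Agent.P352W.Dr
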